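import Mathlib
import Vale.Agent.Lib.P162.Defs
import Vale.Agent.Lib.P162.RDefs
import Vale.Agent.Lib.P162.CVDefs
import Vale.Agent.Lib.P162.helper23.ProdTv
import Vale.Agent.Lib.P162.helper95.KmatBasic
import Vale.Agent.Lib.P162.helper5.TvStep

/-!
Pool job P162-CV6: the Doeblin step. A minorization of the meeting probability contracts the
collision probability of the two walkers.
-/

namespace Vale.Agent.Lib.P162.H25CV

open Finset BigOperators

/-- A symmetric domination bound for a double sum. -/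
theorem sym_bound {Q : Type*} [Fintype Q] (M G' : Q → Q → ℝ) (c : ℝ)
    (hMd : ∀ q, 0 ≤ M q q) (hG' : ∀ q q', 0 ≤ G' q q')
    (hle : ∀ q q', 2 * M q q' ≤ M q q + M q' q')
    (hrow : ∀ q, ∑ q', G' q q' ≤ c) (hcol : ∀ q', ∑ q, G' q q' ≤ c) :
    ∑ q, ∑ q', M q q' * G' q q' ≤ c * ∑ q, M q q := by
  have h1 : ∀ q q', M q q' * G' q q' ≤ (M q q / 2) * G' q q' + (M q' q' / 2) * G' q q' := by
    intro q q'
    have h := mul_le_mul_of_nonneg_right (hle q q') (hG' q q')
    linarith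
  calc ∑ q, ∑ q', M q q' * G' q q'
      ≤ ∑ q, ∑ q', ((M q q / 2) * G' q q' + (M q' q' / 2) * G' q q') :=
        Finset.sum_le_sum fun q _ => Finset.sum_le_sum fun q' _ => h1 q q'
    _ = ∑ q, (M q q / 2) * ∑ q', G' q q' + ∑ q', (M q' q' / 2) * ∑ q, G' q q' := by
        simp only [Finset.sum_add_distrib, Finset.mul_sum]
        congr 1
        exact Finset.sum_comm
    _ ≤ ∑ q, (M q q / 2) * c + ∑ q', (M q' q' / 2) * c := by
        apply add_le_add
        · exact Finset.sum_le_sum fun q _ =>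
            mul_le_mul_of_nonneg_left (hrow q) (by linarith [hMd q])
        · exact Finset.sum_le_sum fun q _ =>
            mul_le_mul_of_nonneg_left (hcol q) (by linarith [hMd q])
    _ = c * ∑ q, M q q := by
        rw [← Finset.sum_add_distrib, Finset.mul_sum]
        exact Finset.sum_congr rfl fun q _ => by ring

/-- The contraction for one fixed configuration of the old cards. -/
theorem contract_fixed {Q : Type*} [Fintype Q] [DecidableEq Q]
    (M G : Q → Q → ℝ) (P : Prop) (A : Q → Prop) [DecidablePred A]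
    (κ m : ℝ) (hκm : κ * m ≤ 1)
    (hM : ∀ q q', 0 ≤ M q q') (hG : ∀ q q', 0 ≤ G q q')
    (hrow : ∀ q, ∑ q', G q q' = 1) (hcol : ∀ q', ∑ q, G q q' = 1)
    (hsupp : ∀ q q', M q q' ≠ 0 → P ∧ A q ∧ A q')
    (hmin : ∀ q q', P → A q → A q' → κ ≤ G q q')
    (hcard : P → ((univ.filter fun q => A q).card : ℝ) = m)
    (hle : ∀ q q', 2 * M q q' ≤ M q q + M q' q') :
    ∑ q, ∑ q', M q q' * G q q' ≤ κ * (∑ q, ∑ q', M q q') + (1 - κ * m) * ∑ q, M q q := by
  by_cases hP : P
  · have hG'nn : ∀ q q', 0 ≤ (if A q ∧ A q' then G q q' - κ else 0) := by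
      intro q q'
      split_ifs with h
      · linarith [hmin q q' hP h.1 h.2]
      · exact le_refl 0
    have hdec : ∀ q q', M q q' * G q q' =
        κ * M q q' + M q q' * (if A q ∧ A q' then G q q' - κ else 0) := by
      intro q q'
      split_ifs with h
      · ring
      · have h0 : M q q' = 0 := by
          by_contra hne
          exact h (hsupp q q' hne).2
        rw [h0]
        ring
    have hfil : ∀ f : Q → ℝ, (∀ q, 0 ≤ f q) → ∑ q, f q = 1 →
        ∑ q, (if A q then f q - κ else 0) ≤ 1 - κ * m := by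
      intro f hf hf1
      rw [← Finset.sum_filter, Finset.sum_sub_distrib, Finset.sum_const, nsmul_eq_mul, hcard hP]
      have hsub : ∑ q ∈ univ.filter (fun q => A q), f q ≤ ∑ q, f q :=
        Finset.sum_le_sum_of_subset_of_nonneg (Finset.filter_subset _ _) fun q _ _ => hf q
      linarith
    have hrow' : ∀ q, ∑ q', (if A q ∧ A q' then G q q' - κ else 0) ≤ 1 - κ * m := by
      intro q
      by_cases hq : A q
      · have e : ∀ q', (if A q ∧ A q' then G q q' - κ else 0) =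
            (if A q' then G q q' - κ else 0) := by
          intro q'
          by_cases hq' : A q'
          · rw [if_pos ⟨hq, hq'⟩, if_pos hq']
          · rw [if_neg (fun hc => hq' hc.2), if_neg hq']
        rw [Finset.sum_congr rfl fun q' _ => e q']
        exact hfil (fun q' => G q q') (fun q' => hG q q') (hrow q)
      · rw [Finset.sum_eq_zero fun q' _ => if_neg (fun hc => hq hc.1)]
        linarith
    have hcol' : ∀ q', ∑ q, (if A q ∧ A q' then G q q' - κ else 0) ≤ 1 - κ * m := by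
      intro q'
      by_cases hq' : A q'
      · have e : ∀ q, (if A q ∧ A q' then G q q' - κ else 0) =
            (if A q then G q q' - κ else 0) := by
          intro q
          by_cases hq : A q
          · rw [if_pos ⟨hq, hq'⟩, if_pos hq]
          · rw [if_neg (fun hc => hq hc.1), if_neg hq]
        rw [Finset.sum_congr rfl fun q _ => e q]
        exact hfil (fun q => G q q') (fun q => hG q q') (hcol q')
      · rw [Finset.sum_eq_zero fun q _ => if_neg (fun hc => hq' hc.2)]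
        linarith
    have hsym := sym_bound M (fun q q' => if A q ∧ A q' then G q q' - κ else 0) (1 - κ * m)
      (fun q => hM q q) hG'nn hle hrow' hcol'
    calc ∑ q, ∑ q', M q q' * G q q'
        = ∑ q, ∑ q', (κ * M q q' + M q q' * (if A q ∧ A q' then G q q' - κ else 0)) :=
          Finset.sum_congr rfl fun q _ => Finset.sum_congr rfl fun q' _ => hdec q q'
      _ = κ * (∑ q, ∑ q', M q q') +
            ∑ q, ∑ q', M q q' * (if A q ∧ A q' then G q q' - κ else 0) := by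
          simp only [Finset.sum_add_distrib, Finset.mul_sum]
      _ ≤ κ * (∑ q, ∑ q', M q q') + (1 - κ * m) * ∑ q, M q q := by
          linarith
  · have h0 : ∀ q q', M q q' = 0 := by
      intro q q'
      by_contra hne
      exact hP (hsupp q q' hne).1
    have e1 : ∑ q, ∑ q', M q q' * G q q' = 0 :=
      Finset.sum_eq_zero fun q _ => Finset.sum_eq_zero fun q' _ => by rw [h0, zero_mul]
    have e2 : ∑ q, ∑ q', M q q' = 0 :=
      Finset.sum_eq_zero fun q _ => Finset.sum_eq_zero fun q' _ => h0 q q'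
    have e3 : ∑ q, M q q = 0 := Finset.sum_eq_zero fun q _ => h0 q q
    rw [e1, e2, e3, mul_zero, mul_zero, add_zero]

/-- The contraction summed over the configurations of the old cards. -/
theorem contract_core {V Q : Type*} [Fintype V] [Fintype Q] [DecidableEq Q]
    (M G : V → Q → Q → ℝ) (Inj : V → Prop) (Av : V → Q → Prop) [∀ v, DecidablePred (Av v)]
    (κ m : ℝ) (hκm : κ * m ≤ 1)
    (hM : ∀ v q q', 0 ≤ M v q q') (hG : ∀ v q q', 0 ≤ G v q q')
    (hrow : ∀ v q, ∑ q', G v q q' = 1) (hcol : ∀ v q', ∑ q, G v q q' = 1)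
    (hsupp : ∀ v q q', M v q q' ≠ 0 → Inj v ∧ Av v q ∧ Av v q')
    (hmin : ∀ v q q', Inj v → Av v q → Av v q' → κ ≤ G v q q')
    (hcard : ∀ v, Inj v → ((univ.filter fun q => Av v q).card : ℝ) = m)
    (hle : ∀ v q q', 2 * M v q q' ≤ M v q q + M v q' q') :
    ∑ v, ∑ q, ∑ q', M v q q' * G v q q'
      ≤ κ * (∑ v, ∑ q, ∑ q', M v q q') + (1 - κ * m) * ∑ v, ∑ q, M v q q := by
  have hv : ∀ v, ∑ q, ∑ q', M v q q' * G v q q'
      ≤ κ * (∑ q, ∑ q', M v q q') + (1 - κ * m) * ∑ q, M v q q := fun v =>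
    contract_fixed (M v) (G v) (Inj v) (Av v) κ m hκm (hM v) (hG v) (hrow v) (hcol v)
      (hsupp v) (hmin v) (hcard v) (hle v)
  calc ∑ v, ∑ q, ∑ q', M v q q' * G v q q'
      ≤ ∑ v, (κ * (∑ q, ∑ q', M v q q') + (1 - κ * m) * ∑ q, M v q q) :=
        Finset.sum_le_sum fun v _ => hv v
    _ = κ * (∑ v, ∑ q, ∑ q', M v q q') + (1 - κ * m) * ∑ v, ∑ q, M v q q := by
        rw [Finset.sum_add_distrib, ← Finset.mul_sum, ← Finset.mul_sum]

/-- Splitting a matrix power inside a double sum over end states. -/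
theorem pow_add_sum2 {U V X : Type*} [Fintype U] [DecidableEq U] [Fintype V] [Fintype X]
    (Qm : Matrix U U ℝ) (t B : ℕ) (u0 : U) (e : V → X → U) :
    ∑ v, ∑ x, (Qm ^ (t + B)) u0 (e v x)
      = ∑ u, (Qm ^ t) u0 u * ∑ v, ∑ x, (Qm ^ B) u (e v x) := by
  rw [pow_add]
  simp only [Matrix.mul_apply, Finset.mul_sum]
  calc ∑ v, ∑ x, ∑ u, (Qm ^ t) u0 u * (Qm ^ B) u (e v x)
      = ∑ v, ∑ u, ∑ x, (Qm ^ t) u0 u * (Qm ^ B) u (e v x) :=
        Finset.sum_congr rfl fun v _ => Finset.sum_comm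
    _ = ∑ u, ∑ v, ∑ x, (Qm ^ t) u0 u * (Qm ^ B) u (e v x) := Finset.sum_comm

/-- A sum over tuples split along the first coordinate, old cards outside. -/
theorem sum_cons_one {α : Type*} [Fintype α] [DecidableEq α] (j : ℕ)
    (f : (Fin (j + 1) → α) → ℝ) :
    ∑ y : Fin (j + 1) → α, f y = ∑ v : Fin j → α, ∑ x : α, f (Fin.cons x v) := by
  rw [H23.sum_fin_succ_fun j f]
  exact Finset.sum_comm

/-- A sum over tuples split along the first two coordinates, old cards outside. -/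
theorem sum_cons_cons {α : Type*} [Fintype α] [DecidableEq α] (j : ℕ)
    (f : (Fin (j + 2) → α) → ℝ) :
    ∑ u : Fin (j + 2) → α, f u
      = ∑ v : Fin j → α, ∑ q : α, ∑ q' : α, f (Fin.cons q (Fin.cons q' v)) := by
  rw [H23.sum_fin_succ_fun (j + 1) f]
  calc ∑ q : α, ∑ y' : Fin (j + 1) → α, f (Fin.cons q y')
      = ∑ q : α, ∑ v : Fin j → α, ∑ q' : α, f (Fin.cons q (Fin.cons q' v)) :=
        Finset.sum_congr rfl fun q _ => sum_cons_one j fun y' => f (Fin.cons q y')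
    _ = ∑ v : Fin j → α, ∑ q : α, ∑ q' : α, f (Fin.cons q (Fin.cons q' v)) := Finset.sum_comm

/-- Rotating a triple sum. -/
theorem sum_rot {A B C : Type*} [Fintype A] [Fintype B] [Fintype C] (f : A → B → C → ℝ) :
    ∑ a, ∑ b, ∑ c, f a b c = ∑ b, ∑ c, ∑ a, f a b c := by
  calc ∑ a, ∑ b, ∑ c, f a b c = ∑ b, ∑ a, ∑ c, f a b c := Finset.sum_comm
    _ = ∑ b, ∑ c, ∑ a, f a b c := Finset.sum_congr rfl fun b _ => Finset.sum_comm

theorem Dcol_contract_of (h j : ℕ) [NeZero h]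
    (hQnn : ∀ (t : ℕ) (u y : Fin (j + 2) → ZMod (2 * h)), 0 ≤ (Qmat h j ^ t) u y)
    (hQsum : ∀ (t : ℕ) (u : Fin (j + 2) → ZMod (2 * h)), ∑ y, (Qmat h j ^ t) u y = 1)
    (htwo : ∀ (t : ℕ) (q : ZMod (2 * h)) (v : Fin j → ZMod (2 * h))
      (y : Fin (j + 2) → ZMod (2 * h)),
      ∑ q' : ZMod (2 * h), (Qmat h j ^ t) (Fin.cons q (Fin.cons q' v)) y
        = (Kmat h (j + 1) ^ t) (Fin.cons q v) (dropTwo y))
    (hone : ∀ (t : ℕ) (q' : ZMod (2 * h)) (v : Fin j → ZMod (2 * h))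
      (y : Fin (j + 2) → ZMod (2 * h)),
      ∑ q : ZMod (2 * h), (Qmat h j ^ t) (Fin.cons q (Fin.cons q' v)) y
        = (Kmat h (j + 1) ^ t) (Fin.cons q' v) (Fin.tail y))
    (hsupp : ∀ (t : ℕ) (p p' : ZMod (2 * h)) (w : Fin j → ZMod (2 * h)),
      Function.Injective (Fin.cons p w : Fin (j + 1) → ZMod (2 * h)) →
      Function.Injective (Fin.cons p' w : Fin (j + 1) → ZMod (2 * h)) →
      ∀ (q q' : ZMod (2 * h)) (v : Fin j → ZMod (2 * h)),
      (Qmat h j ^ t) (Fin.cons p (Fin.cons p' w)) (Fin.cons q (Fin.cons q' v)) ≠ 0 →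
      Function.Injective v ∧ (∀ i, q ≠ v i) ∧ (∀ i, q' ≠ v i))
    (hle : ∀ (t : ℕ) (p q q' : ZMod (2 * h)) (w v : Fin j → ZMod (2 * h)),
      2 * (Qmat h j ^ t) (Fin.cons p (Fin.cons p w)) (Fin.cons q (Fin.cons q' v))
        ≤ (Qmat h j ^ t) (Fin.cons p (Fin.cons p w)) (Fin.cons q (Fin.cons q v))
          + (Qmat h j ^ t) (Fin.cons p (Fin.cons p w)) (Fin.cons q' (Fin.cons q' v)))
    (B : ℕ) (κ : ℝ) (hκ : 0 ≤ κ)
    (hκm : κ * ((2 * h : ℝ) - j) ≤ 1)
    (hmin : ∀ (v : Fin j → ZMod (2 * h)) (q q' : ZMod (2 * h)), Function.Injective v →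
      (∀ i, q ≠ v i) → (∀ i, q' ≠ v i) → κ ≤ Dcol h j B (Fin.cons q (Fin.cons q' v)))
    (p : ZMod (2 * h)) (w : Fin j → ZMod (2 * h))
    (hz : Function.Injective (Fin.cons p w : Fin (j + 1) → ZMod (2 * h))) (t : ℕ) :
    Dcol h j (t + B) (Fin.cons p (Fin.cons p w))
      ≤ κ + (1 - κ * ((2 * h : ℝ) - j)) * Dcol h j t (Fin.cons p (Fin.cons p w)) := by
  have _hκ0 : 0 ≤ κ := hκ
  have h1 : Dcol h j (t + B) (Fin.cons p (Fin.cons p w))
      = ∑ u, (Qmat h j ^ t) (Fin.cons p (Fin.cons p w)) u * Dcol h j B u :=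
    pow_add_sum2 (Qmat h j) t B (Fin.cons p (Fin.cons p w))
      (fun (v : Fin j → ZMod (2 * h)) (q : ZMod (2 * h)) => Fin.cons q (Fin.cons q v))
  have h2 : ∑ u, (Qmat h j ^ t) (Fin.cons p (Fin.cons p w)) u * Dcol h j B u
      = ∑ v : Fin j → ZMod (2 * h), ∑ q : ZMod (2 * h), ∑ q' : ZMod (2 * h),
        (Qmat h j ^ t) (Fin.cons p (Fin.cons p w)) (Fin.cons q (Fin.cons q' v))
          * Dcol h j B (Fin.cons q (Fin.cons q' v)) :=
    sum_cons_cons j fun u => (Qmat h j ^ t) (Fin.cons p (Fin.cons p w)) u * Dcol h j B u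
  have h3 : ∑ v : Fin j → ZMod (2 * h), ∑ q : ZMod (2 * h), ∑ q' : ZMod (2 * h),
      (Qmat h j ^ t) (Fin.cons p (Fin.cons p w)) (Fin.cons q (Fin.cons q' v)) = 1 := by
    rw [← sum_cons_cons j fun u => (Qmat h j ^ t) (Fin.cons p (Fin.cons p w)) u]
    exact hQsum t _
  have hGnn : ∀ u : Fin (j + 2) → ZMod (2 * h), 0 ≤ Dcol h j B u := by
    intro u
    rw [Dcol_apply]
    exact Finset.sum_nonneg fun v1 _ => Finset.sum_nonneg fun x _ => hQnn B _ _
  have hrow : ∀ (v : Fin j → ZMod (2 * h)) (q : ZMod (2 * h)),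
      ∑ q' : ZMod (2 * h), Dcol h j B (Fin.cons q (Fin.cons q' v)) = 1 := by
    intro v q
    calc ∑ q' : ZMod (2 * h), Dcol h j B (Fin.cons q (Fin.cons q' v))
        = ∑ q' : ZMod (2 * h), ∑ v1 : Fin j → ZMod (2 * h), ∑ x : ZMod (2 * h),
            (Qmat h j ^ B) (Fin.cons q (Fin.cons q' v)) (Fin.cons x (Fin.cons x v1)) := rfl
      _ = ∑ v1 : Fin j → ZMod (2 * h), ∑ x : ZMod (2 * h), ∑ q' : ZMod (2 * h),
            (Qmat h j ^ B) (Fin.cons q (Fin.cons q' v)) (Fin.cons x (Fin.cons x v1)) :=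
          sum_rot _
      _ = ∑ v1 : Fin j → ZMod (2 * h), ∑ x : ZMod (2 * h),
            (Kmat h (j + 1) ^ B) (Fin.cons q v) (Fin.cons x v1) :=
          Finset.sum_congr rfl fun v1 _ => Finset.sum_congr rfl fun x _ => htwo B q v _
      _ = ∑ y : Fin (j + 1) → ZMod (2 * h), (Kmat h (j + 1) ^ B) (Fin.cons q v) y :=
          (sum_cons_one j _).symm
      _ = 1 := H95.Kmat_pow_sum h (j + 1) B _
  have hcol : ∀ (v : Fin j → ZMod (2 * h)) (q' : ZMod (2 * h)),
      ∑ q : ZMod (2 * h), Dcol h j B (Fin.cons q (Fin.cons q' v)) = 1 := by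
    intro v q'
    calc ∑ q : ZMod (2 * h), Dcol h j B (Fin.cons q (Fin.cons q' v))
        = ∑ q : ZMod (2 * h), ∑ v1 : Fin j → ZMod (2 * h), ∑ x : ZMod (2 * h),
            (Qmat h j ^ B) (Fin.cons q (Fin.cons q' v)) (Fin.cons x (Fin.cons x v1)) := rfl
      _ = ∑ v1 : Fin j → ZMod (2 * h), ∑ x : ZMod (2 * h), ∑ q : ZMod (2 * h),
            (Qmat h j ^ B) (Fin.cons q (Fin.cons q' v)) (Fin.cons x (Fin.cons x v1)) :=
          sum_rot _
      _ = ∑ v1 : Fin j → ZMod (2 * h), ∑ x : ZMod (2 * h),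
            (Kmat h (j + 1) ^ B) (Fin.cons q' v) (Fin.cons x v1) :=
          Finset.sum_congr rfl fun v1 _ => Finset.sum_congr rfl fun x _ => hone B q' v _
      _ = ∑ y : Fin (j + 1) → ZMod (2 * h), (Kmat h (j + 1) ^ B) (Fin.cons q' v) y :=
          (sum_cons_one j _).symm
      _ = 1 := H95.Kmat_pow_sum h (j + 1) B _
  have hcard : ∀ v : Fin j → ZMod (2 * h), Function.Injective v →
      ((univ.filter fun q : ZMod (2 * h) => ∀ i, q ≠ v i).card : ℝ) = (2 * h : ℝ) - j := by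
    intro v hv
    have hj : j ≤ 2 * h := by
      have hc := Fintype.card_le_of_injective v hv
      rw [Fintype.card_fin, ZMod.card] at hc
      exact hc
    rw [H5.card_avoid j v hv, ZMod.card, Nat.cast_sub hj]
    push_cast
    ring
  have hcore := contract_core
    (fun (v : Fin j → ZMod (2 * h)) (q q' : ZMod (2 * h)) =>
      (Qmat h j ^ t) (Fin.cons p (Fin.cons p w)) (Fin.cons q (Fin.cons q' v)))
    (fun (v : Fin j → ZMod (2 * h)) (q q' : ZMod (2 * h)) =>
      Dcol h j B (Fin.cons q (Fin.cons q' v)))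
    (fun v : Fin j → ZMod (2 * h) => Function.Injective v)
    (fun (v : Fin j → ZMod (2 * h)) (q : ZMod (2 * h)) => ∀ i, q ≠ v i)
    κ ((2 * h : ℝ) - j) hκm (fun v q q' => hQnn t _ _) (fun v q q' => hGnn _) hrow hcol
    (fun v q q' hne => hsupp t p p w hz hz q q' v hne) hmin hcard
    (fun v q q' => hle t p q q' w v)
  rw [h1, h2]
  calc ∑ v : Fin j → ZMod (2 * h), ∑ q : ZMod (2 * h), ∑ q' : ZMod (2 * h),
        (Qmat h j ^ t) (Fin.cons p (Fin.cons p w)) (Fin.cons q (Fin.cons q' v))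
          * Dcol h j B (Fin.cons q (Fin.cons q' v))
      ≤ κ * (∑ v : Fin j → ZMod (2 * h), ∑ q : ZMod (2 * h), ∑ q' : ZMod (2 * h),
          (Qmat h j ^ t) (Fin.cons p (Fin.cons p w)) (Fin.cons q (Fin.cons q' v)))
        + (1 - κ * ((2 * h : ℝ) - j)) * ∑ v : Fin j → ZMod (2 * h), ∑ q : ZMod (2 * h),
          (Qmat h j ^ t) (Fin.cons p (Fin.cons p w)) (Fin.cons q (Fin.cons q v)) := hcore
    _ = κ + (1 - κ * ((2 * h : ℝ) - j)) * Dcol h j t (Fin.cons p (Fin.cons p w)) := by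
        rw [h3, mul_one, Dcol_apply]

end Vale.Agent.Lib.P162.H25CV
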