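import Mathlib
import Vale.Agent.Lib.P162.Defs
import Vale.Agent.Lib.P162.RDefs
import Vale.Agent.Lib.P162.CVDefs
import Vale.Agent.Lib.P162.helper23.ProdTv
import Vale.Agent.Lib.P162.helper95.KmatBasic
import Vale.Agent.Lib.P162.helper5.TvStep
import Vale.Agent.Lib.P162.helper43.LumpTail
import Vale.Agent.Lib.P162.helper36.MoveInj

/-!
Pool job P162-CV5: the square of the defect of the new card is at most the number of free
positions times the collision probability of the two walkers, minus one.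
-/

namespace Vale.Agent.Lib.P162.H25CV5

open Finset BigOperators

/-- The bound for one fixed configuration of the old cards. -/
theorem defect_fixed {Q : Type*} [Fintype Q] [DecidableEq Q]
    (a s : Q → ℝ) (b : ℝ) (P : Prop) (A : Q → Prop) [DecidablePred A] (m : ℝ) (hm : 0 < m)
    (hF1 : ∑ q, a q = b)
    (hF2 : ∀ q, a q ≠ 0 → P ∧ A q)
    (hF3 : ∀ q, a q ^ 2 ≤ b * s q)
    (hF6 : P → ((univ.filter fun q => A q).card : ℝ) = m) :
    (∑ q, |a q - (if A q then b / m else 0)|) ^ 2 ≤ b * (m * (∑ q, s q) - b) := by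
  by_cases hP : P
  · have hterm : ∀ q, |a q - (if A q then b / m else 0)| = if A q then |a q - b / m| else 0 := by
      intro q
      by_cases hq : A q
      · rw [if_pos hq, if_pos hq]
      · have h0 : a q = 0 := by
          by_contra hne
          exact hq (hF2 q hne).2
        rw [if_neg hq, if_neg hq, h0, sub_zero, abs_zero]
    have hsumH : ∑ q ∈ univ.filter (fun q => A q), a q = b := by
      rw [Finset.sum_filter, ← hF1]
      refine Finset.sum_congr rfl fun q _ => ?_
      by_cases hq : A q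
      · rw [if_pos hq]
      · have h0 : a q = 0 := by
          by_contra hne
          exact hq (hF2 q hne).2
        rw [if_neg hq, h0]
    rw [Finset.sum_congr rfl fun q _ => hterm q, ← Finset.sum_filter]
    have hcs := sq_sum_le_card_mul_sum_sq (s := univ.filter (fun q => A q))
      (f := fun q => |a q - b / m|)
    rw [hF6 hP] at hcs
    have hsq : ∑ q ∈ univ.filter (fun q => A q), |a q - b / m| ^ 2
        = ∑ q ∈ univ.filter (fun q => A q), a q ^ 2 - b ^ 2 / m := by
      have e : ∀ q, |a q - b / m| ^ 2 = a q ^ 2 - 2 * (b / m) * a q + (b / m) ^ 2 := by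
        intro q
        rw [sq_abs]
        ring
      rw [Finset.sum_congr rfl fun q _ => e q, Finset.sum_add_distrib, Finset.sum_sub_distrib,
        ← Finset.mul_sum, hsumH, Finset.sum_const, nsmul_eq_mul, hF6 hP]
      field_simp
      ring
    have hle1 : ∑ q ∈ univ.filter (fun q => A q), a q ^ 2 ≤ ∑ q, a q ^ 2 :=
      Finset.sum_le_sum_of_subset_of_nonneg (Finset.filter_subset _ _) fun q _ _ => sq_nonneg _
    have hle2 : ∑ q, a q ^ 2 ≤ b * ∑ q, s q := by
      rw [Finset.mul_sum]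
      exact Finset.sum_le_sum fun q _ => hF3 q
    rw [hsq] at hcs
    have hmul : m * (∑ q ∈ univ.filter (fun q => A q), a q ^ 2 - b ^ 2 / m)
        = m * ∑ q ∈ univ.filter (fun q => A q), a q ^ 2 - b ^ 2 := by
      field_simp
    have hle3 := mul_le_mul_of_nonneg_left (hle1.trans hle2) hm.le
    calc (∑ q ∈ univ.filter (fun q => A q), |a q - b / m|) ^ 2
        ≤ m * (∑ q ∈ univ.filter (fun q => A q), a q ^ 2 - b ^ 2 / m) := hcs
      _ = m * ∑ q ∈ univ.filter (fun q => A q), a q ^ 2 - b ^ 2 := hmul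
      _ ≤ m * (b * ∑ q, s q) - b ^ 2 := by linarith
      _ = b * (m * (∑ q, s q) - b) := by ring
  · have h0 : ∀ q, a q = 0 := fun q => by
      by_contra hne
      exact hP (hF2 q hne).1
    have hb0 : b = 0 := by
      rw [← hF1]
      exact Finset.sum_eq_zero fun q _ => h0 q
    have hz : ∀ q, |a q - (if A q then b / m else 0)| = 0 := by
      intro q
      rw [h0 q, hb0, zero_div, ite_self, sub_zero, abs_zero]
    rw [Finset.sum_eq_zero fun q _ => hz q, hb0, zero_mul]
    norm_num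

/-- The bound summed over the configurations of the old cards. -/
theorem defect_core {V Q : Type*} [Fintype V] [Fintype Q] [DecidableEq Q]
    (a s : Q → V → ℝ) (b : V → ℝ) (Inj : V → Prop) (Av : V → Q → Prop)
    [∀ v, DecidablePred (Av v)] (m : ℝ) (hm : 0 < m)
    (hb : ∀ v, 0 ≤ b v) (hs : ∀ q v, 0 ≤ s q v)
    (hF1 : ∀ v, ∑ q, a q v = b v)
    (hF2 : ∀ q v, a q v ≠ 0 → Inj v ∧ Av v q)
    (hF3 : ∀ q v, a q v ^ 2 ≤ b v * s q v)
    (hF4 : ∑ v, b v = 1)
    (hF6 : ∀ v, Inj v → ((univ.filter fun q => Av v q).card : ℝ) = m) :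
    (∑ v, ∑ q, |a q v - (if Av v q then b v / m else 0)|) ^ 2
      ≤ m * (∑ v, ∑ q, s q v) - 1 := by
  have hclaim : ∀ v, (∑ q, |a q v - (if Av v q then b v / m else 0)|) ^ 2
      ≤ b v * (m * (∑ q, s q v) - b v) := fun v =>
    defect_fixed (fun q => a q v) (fun q => s q v) (b v) (Inj v) (Av v) m hm (hF1 v)
      (fun q => hF2 q v) (fun q => hF3 q v) (hF6 v)
  have hg : ∀ v, 0 ≤ m * (∑ q, s q v) - b v := by
    intro v
    have hS : 0 ≤ ∑ q, s q v := Finset.sum_nonneg fun q _ => hs q v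
    rcases (hb v).lt_or_eq with hpos | hzero
    · by_contra hneg
      have hneg' : m * (∑ q, s q v) - b v < 0 := not_le.mp hneg
      have h1 := hclaim v
      have h2 : b v * (m * (∑ q, s q v) - b v) < 0 := mul_neg_of_pos_of_neg hpos hneg'
      have h3 := sq_nonneg (∑ q, |a q v - (if Av v q then b v / m else 0)|)
      linarith
    · rw [← hzero, sub_zero]
      exact mul_nonneg hm.le hS
  have hw := Finset.sum_sq_le_sum_mul_sum_of_sq_le_mul (univ : Finset V)
    (r := fun v => ∑ q, |a q v - (if Av v q then b v / m else 0)|) (f := b)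
    (g := fun v => m * (∑ q, s q v) - b v) (fun v _ => hb v) (fun v _ => hg v)
    (fun v _ => hclaim v)
  calc (∑ v, ∑ q, |a q v - (if Av v q then b v / m else 0)|) ^ 2
      ≤ (∑ v, b v) * ∑ v, (m * (∑ q, s q v) - b v) := hw
    _ = m * (∑ v, ∑ q, s q v) - 1 := by
        rw [Finset.sum_sub_distrib, ← Finset.mul_sum, hF4, one_mul]

/-- A sum over tuples split along the first coordinate, old cards outside. -/
theorem sum_cons_one {α : Type*} [Fintype α] [DecidableEq α] (j : ℕ)
    (f : (Fin (j + 1) → α) → ℝ) :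
    ∑ y : Fin (j + 1) → α, f y = ∑ v : Fin j → α, ∑ x : α, f (Fin.cons x v) := by
  rw [H23.sum_fin_succ_fun j f]
  exact Finset.sum_comm

theorem defect_sq_le_of (h j : ℕ) [NeZero h]
    (hdiag : ∀ (t : ℕ) (p q : ZMod (2 * h)) (w v : Fin j → ZMod (2 * h)),
      ((Kmat h (j + 1) ^ t) (Fin.cons p w) (Fin.cons q v)) ^ 2
        ≤ (Kmat h j ^ t) w v
          * (Qmat h j ^ t) (Fin.cons p (Fin.cons p w)) (Fin.cons q (Fin.cons q v)))
    (hQnn : ∀ (t : ℕ) (u y : Fin (j + 2) → ZMod (2 * h)), 0 ≤ (Qmat h j ^ t) u y)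
    (t : ℕ) (p : ZMod (2 * h)) (w : Fin j → ZMod (2 * h))
    (hz : Function.Injective (Fin.cons p w : Fin (j + 1) → ZMod (2 * h))) :
    (defect h j t (Fin.cons p w)) ^ 2
      ≤ ((2 * h : ℝ) - j) * Dcol h j t (Fin.cons p (Fin.cons p w)) - 1 := by
  have hj1 : j + 1 ≤ 2 * h := by
    have hc := Fintype.card_le_of_injective _ hz
    rw [Fintype.card_fin, ZMod.card] at hc
    exact hc
  have hm : (0 : ℝ) < (2 * h : ℝ) - j := by
    have h1 : ((j + 1 : ℕ) : ℝ) ≤ ((2 * h : ℕ) : ℝ) := Nat.cast_le.mpr hj1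
    push_cast at h1
    linarith
  have hdef : defect h j t (Fin.cons p w)
      = ∑ v : Fin j → ZMod (2 * h), ∑ q : ZMod (2 * h),
        |(Kmat h (j + 1) ^ t) (Fin.cons p w) (Fin.cons q v)
          - (if ∀ i, q ≠ v i then (Kmat h j ^ t) w v / ((2 * h : ℝ) - j) else 0)| := by
    rw [defect_apply, sum_cons_one j]
    rfl
  have hcard : ∀ v : Fin j → ZMod (2 * h), Function.Injective v →
      ((univ.filter fun q : ZMod (2 * h) => ∀ i, q ≠ v i).card : ℝ) = (2 * h : ℝ) - j := by
    intro v hv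
    have hj : j ≤ 2 * h := by omega
    rw [H5.card_avoid j v hv, ZMod.card, Nat.cast_sub hj]
    push_cast
    ring
  have hF2 : ∀ (q : ZMod (2 * h)) (v : Fin j → ZMod (2 * h)),
      (Kmat h (j + 1) ^ t) (Fin.cons p w) (Fin.cons q v) ≠ 0 →
      Function.Injective v ∧ ∀ i, q ≠ v i := by
    intro q v hne
    have hinj := H95.Kmat_pow_support h (j + 1) (H36.move_injective h) (Fin.cons p w) hz t
      (Fin.cons q v) hne
    obtain ⟨hnr, hv⟩ := Fin.cons_injective_iff.mp hinj
    exact ⟨hv, fun i hqi => hnr ⟨i, hqi.symm⟩⟩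
  have hcore := defect_core
    (fun (q : ZMod (2 * h)) (v : Fin j → ZMod (2 * h)) =>
      (Kmat h (j + 1) ^ t) (Fin.cons p w) (Fin.cons q v))
    (fun (q : ZMod (2 * h)) (v : Fin j → ZMod (2 * h)) =>
      (Qmat h j ^ t) (Fin.cons p (Fin.cons p w)) (Fin.cons q (Fin.cons q v)))
    (fun v : Fin j → ZMod (2 * h) => (Kmat h j ^ t) w v)
    (fun v : Fin j → ZMod (2 * h) => Function.Injective v)
    (fun (v : Fin j → ZMod (2 * h)) (q : ZMod (2 * h)) => ∀ i, q ≠ v i)
    ((2 * h : ℝ) - j) hm (fun v => H95.Kmat_pow_nonneg h j t w v) (fun q v => hQnn t _ _)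
    (fun v => H43.lump_tail h j t (Fin.cons p w) v) hF2 (fun q v => hdiag t p q w v)
    (H95.Kmat_pow_sum h j t w) hcard
  rw [hdef, Dcol_apply]
  exact hcore

end Vale.Agent.Lib.P162.H25CV5
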